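import Vale.Agent.P352W.Rp.Cur

/-!
# The domain generated by covariant fields lies in the domain of the generators
-/

set_option linter.all false

noncomputable section

open Filter Topology SchwartzMap Complex
open scoped SchwartzMap

namespace Vale.Agent.P352W.Rp

open Vale.Agent.P352 Vale.Agent.P352.GF Vale.Agent.P352.H746 Vale.Agent.P352.H15
open Vale.Agent.P352.H246 Vale.Agent.P352.H496

variable {D : Type*} [NormedAddCommGroup D] [InnerProductSpace ℂ D]

/-- joint continuity, from the uniform boundedness principle -/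
lemma bs {l : Filter ℝ} [l.IsCountablyGenerated] (T : ℝ → 𝓢(Mink, ℂ) →L[ℂ] D)
    (T0 : 𝓢(Mink, ℂ) → D) (hT : ∀ h, Tendsto (fun e => T e h) l (𝓝 (T0 h)))
    {h : ℝ → 𝓢(Mink, ℂ)} {h0 : 𝓢(Mink, ℂ)} (hh : Tendsto h l (𝓝 h0)) :
    Tendsto (fun e => T e (h e)) l (𝓝 (T0 h0)) := by
  rw [tendsto_iff_seq_tendsto]
  intro u hu
  have := barrelled_schwartz
  have hbd : ∀ (k : Fin 1) (x : 𝓢(Mink, ℂ)), BddAbove (Set.range fun n =>
      (fun _ : Fin 1 => normSeminorm ℂ D) k ((T (u n)) x)) := by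
    intro k x
    exact ((hT x).comp hu).norm.bddAbove_range
  have heq := ((norm_withSeminorms ℂ D).banach_steinhaus (𝓕 := fun n => T (u n))
    hbd).equicontinuous 0
  rw [Metric.equicontinuousAt_iff_pair] at heq
  have h1 : Tendsto (fun n => h (u n) - h0) atTop (𝓝 0) := by
    have := (hh.comp hu).sub_const h0
    rwa [sub_self] at this
  have h2 : Tendsto (fun n => T (u n) (h (u n) - h0)) atTop (𝓝 0) := by
    rw [Metric.tendsto_nhds]
    intro ε hε
    obtain ⟨U, hU, h6⟩ := heq ε hε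
    filter_upwards [h1.eventually hU] with n hn
    have h8 := h6 _ hn 0 (mem_of_mem_nhds hU) n
    simpa only [Function.comp_apply, map_zero] using h8
  have h3 := h2.add ((hT h0).comp hu)
  rw [zero_add] at h3
  refine h3.congr fun n => ?_
  simp only [Function.comp_apply, map_sub, sub_add_cancel]

/-- operators with an adjoint on the domain -/
def Aj (W : D → D) : Prop := ∃ W' : D → D, ∀ z v, inner ℂ z (W v) = inner ℂ (W' z) v

lemma aj_id : Aj (fun v : D => v) := ⟨fun z => z, fun _ _ => rfl⟩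

lemma Aj.add {W : D → D} (h : Aj W) (v w : D) : W (v + w) = W v + W w := by
  obtain ⟨W', h⟩ := h
  refine ext_inner_left ℂ fun z => ?_
  rw [inner_add_right, h, h, h, inner_add_right]

lemma Aj.smul {W : D → D} (h : Aj W) (c : ℂ) (v : D) : W (c • v) = c • W v := by
  obtain ⟨W', h⟩ := h
  refine ext_inner_left ℂ fun z => ?_
  rw [inner_smul_right, h, h, inner_smul_right]

/-- the linear map of an operator with an adjoint -/
def Aj.lin {W : D → D} (h : Aj W) : D →ₗ[ℂ] D where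
  toFun := W
  map_add' := h.add
  map_smul' := h.smul

lemma Aj.comp {W W' : D → D} (h : Aj W) (h' : Aj W') : Aj fun v => W (W' v) := by
  obtain ⟨A, h⟩ := h
  obtain ⟨A', h'⟩ := h'
  exact ⟨fun z => A' (A z), fun z v => by rw [h, h']⟩

variable {Q : Theory D}

lemma aj_fld {B : Fld D} (hB : Q.fld B) {f : Fn} (hf : GF.IsTest f) : Aj (B f) := by
  obtain ⟨B1, -, hadj⟩ := Q.adj B hB
  exact ⟨B1 (bar f), fun z v => by rw [← inner_conj_symm, hadj f v z hf, inner_conj_symm]⟩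

/-- a word as a continuous linear function of a test function -/
def wcl {W : D → D} (hW : Aj W) {B : Fld D} (hB : Q.fld B) (v : D) : 𝓢(Mink, ℂ) →L[ℂ] D where
  toLinearMap := hW.lin ∘ₗ (fcl hB v).toLinearMap
  cont := by
    have := barrelled_schwartz
    refine cont_of_weak _ dense_univ fun z _ => ?_
    obtain ⟨W', h⟩ := id hW
    have h1 : Continuous fun F => inner ℂ (W' z) (fcl hB v F) :=
      continuous_const.inner (fcl hB v).continuous
    exact h1.congr fun F => (h z _).symm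

lemma wcl_apply {W : D → D} (hW : Aj W) {B : Fld D} (hB : Q.fld B) (v : D) (F : 𝓢(Mink, ℂ)) :
    wcl hW hB v F = W (B (fl F) v) := rfl

/-- curves that are differentiable after the action of every operator with an adjoint -/
def Dif (x : ℝ → D) (y : D) : Prop := ∀ W, Aj W → HasDerivAt (fun e => W (x e)) (W y) 0

lemma dif_const (v : D) : Dif (fun _ => v) 0 := fun W hW => by
  rw [show W 0 = 0 from map_zero hW.lin]
  exact hasDerivAt_const _ _

lemma Dif.add {x x' : ℝ → D} {y y' : D} (h : Dif x y) (h' : Dif x' y') :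
    Dif (fun e => x e + x' e) (y + y') := fun W hW => by
  simp only [hW.add]
  exact (h W hW).fun_add (h' W hW)

lemma Dif.smul {x : ℝ → D} {y : D} (h : Dif x y) (c : ℂ) :
    Dif (fun e => c • x e) (c • y) := fun W hW => by
  simp only [hW.smul]
  exact (h W hW).fun_const_smul c

lemma Dif.mul {x : ℝ → D} {y : D} (h : Dif x y) {C : ℝ → ℝ} {C' : ℝ} (hC : HasDerivAt C C' 0) :
    Dif (fun e => (C e : ℂ) • x e) ((C' : ℂ) • x 0 + (C 0 : ℂ) • y) := fun W hW => by
  simp only [hW.smul, hW.add]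
  have h1 := hC.fun_smul (h W hW)
  rw [add_comm] at h1
  exact h1

lemma dif_sum {ι : Type*} (t : Finset ι) {x : ι → ℝ → D} {y : ι → D} (h : ∀ k, Dif (x k) (y k)) :
    Dif (fun e => ∑ k ∈ t, x k e) (∑ k ∈ t, y k) := fun W hW => by
  have h1 : ∀ u : ι → D, W (∑ k ∈ t, u k) = ∑ k ∈ t, W (u k) := fun u => map_sum hW.lin u t
  simp only [h1]
  exact HasDerivAt.fun_sum fun k _ => h k W hW

lemma Dif.fld {x : ℝ → D} {y : D} (h : Dif x y) {B : Fld D} (hB : Q.fld B)
    {g : ℝ → 𝓢(Mink, ℂ)} {g' : 𝓢(Mink, ℂ)}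
    (hg : Tendsto (fun e : ℝ => e⁻¹ • (g e - g 0)) (𝓝[≠] 0) (𝓝 g')) :
    Dif (fun e => B (fl (g e)) (x e)) (B (fl g') (x 0) + B (fl (g 0)) y) := fun W hW => by
  have h1 := hasDerivAt_iff_tendsto_slope.1 (h _ (hW.comp (aj_fld hB (isTest_fl (g 0)))))
  have h2 := bs (l := 𝓝[≠] 0) (fun e => wcl hW hB (x e)) (fun F => W (B (fl F) (x 0)))
    (fun F => ((h _ (hW.comp (aj_fld hB (isTest_fl F)))).continuousAt.tendsto).mono_left
      nhdsWithin_le_nhds) hg
  rw [hW.add, hasDerivAt_iff_tendsto_slope]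
  refine (h2.add h1).congr fun e => ?_
  rw [slope_def_module, slope_def_module, sub_zero, ContinuousLinearMap.map_smul_of_tower, map_sub,
    wcl_apply, wcl_apply, ← smul_add, sub_add_sub_cancel]

/-- vectors in the domain of the generators -/
def Gd (Q : Theory D) (v : D) : Prop := ∃ Y : (V → V) → D,
  (∀ r r' (t : ℝ) X X', IsSim r X → IsSim r' X' →
    Y (fun z => X z + t • X' z) = Y X + (t : ℂ) • Y X') ∧
  ∀ s L a X, Cv s L a X → ∃ x : ℝ → D, (∀ e, Q.U (s e) (L e) (a e) (x e) = v) ∧ Dif x (Y X)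

lemma gd_inv {v : D} (h : ∀ s L a, 0 < s → IsLor L → Q.U s L a v = v) : Gd Q v :=
  ⟨fun _ => 0, fun _ _ _ _ _ _ _ => by simp, fun s L a X K =>
    ⟨fun _ => v, fun e => h _ _ _ (K.1.sp e) (K.1.lor e), dif_const v⟩⟩

lemma U_lin {s : ℝ} (hs : 0 < s) {L : Ix → V} (hL : IsLor L) (a : V) :
    ∃ u : D →ₗ[ℂ] D, ∀ v, Q.U s L a v = u v :=
  ⟨⟨⟨Q.U s L a, U_add hs hL a⟩, U_smul hs hL a⟩, fun _ => rfl⟩

lemma Gd.add {v w : D} (hv : Gd Q v) (hw : Gd Q w) : Gd Q (v + w) := by
  obtain ⟨Y, h1, h2⟩ := hv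
  obtain ⟨Y', h1', h2'⟩ := hw
  refine ⟨fun X => Y X + Y' X, fun r r' t X X' hX hX' => ?_, fun s L a X K => ?_⟩
  · simp only [h1 r r' t X X' hX hX', h1' r r' t X X' hX hX', smul_add]
    abel
  · obtain ⟨x, h3, h4⟩ := h2 s L a X K
    obtain ⟨x', h3', h4'⟩ := h2' s L a X K
    exact ⟨fun e => x e + x' e, fun e => by rw [U_add (K.1.sp e) (K.1.lor e), h3, h3'], h4.add h4'⟩

lemma Gd.smul {v : D} (hv : Gd Q v) (c : ℂ) : Gd Q (c • v) := by
  obtain ⟨Y, h1, h2⟩ := hv
  refine ⟨fun X => c • Y X, fun r r' t X X' hX hX' => ?_, fun s L a X K => ?_⟩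
  · simp only [h1 r r' t X X' hX hX', smul_add]
    rw [smul_comm c]
  · obtain ⟨x, h3, h4⟩ := h2 s L a X K
    exact ⟨fun e => c • x e, fun e => by rw [U_smul (K.1.sp e) (K.1.lor e), h3], h4.smul c⟩

lemma Gd.fld {ι : Type*} [Fintype ι] {B : ι → Fld D} (hB : ∀ k, Q.fld (B k)) {B0 : Fld D}
    (C : ℝ → (Ix → V) → ι → ℝ) (C' : (V → V) → ι → ℝ)
    (hC : ∀ s L a X k, Cv s L a X → HasDerivAt (fun e => C (s e) (L e) k) (C' X k) 0)
    (hC' : ∀ X X' (t : ℝ) k, C' (fun z => X z + t • X' z) k = C' X k + t * C' X' k)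
    (cov : ∀ s L a f v, 0 < s → IsLor L → GF.IsTest f → B0 f (Q.U s L a v) =
      ∑ k, (C s L k : ℂ) • Q.U s L a (B k (fun x => f (sim s L a x)) v))
    {f : Fn} (hf : GF.IsTest f) {v : D} (hv : Gd Q v) : Gd Q (B0 f v) := by
  obtain ⟨Y, h1, h2⟩ := hv
  refine ⟨fun X => ∑ k, ((C' X k : ℂ) • B k f v +
    (C 1 GF.one k : ℂ) • (B k (vf X f) v + B k f (Y X))), fun r r' t X X' hX hX' => ?_,
    fun s L a X K => ?_⟩
  · have e1 : vf (fun z => X z + t • X' z) f = fun x => vf X f x + (t : ℂ) * vf X' f x := by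
      funext x
      simp only [vf, Pi.add_apply, Pi.smul_apply, smul_eq_mul, Finset.mul_sum,
        ← Finset.sum_add_distrib]
      refine Finset.sum_congr rfl fun n _ => ?_
      push_cast
      ring
    simp only [Finset.smul_sum, ← Finset.sum_add_distrib]
    refine Finset.sum_congr rfl fun k _ => ?_
    rw [h1 r r' t X X' hX hX', hC', e1,
      Q.lin _ _ _ _ v (hB k) (isTest_vf hX hf) (isTest_vf hX' hf), (aj_fld (hB k) hf).add,
      (aj_fld (hB k) hf).smul]
    push_cast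
    module
  · obtain ⟨x, h3, h4⟩ := h2 s L a X K
    obtain ⟨F, rfl⟩ := exists_fl hf
    have x0 : x 0 = v := by rw [← h3 0, U_at0 K.1]
    refine ⟨fun e => ∑ k, (C (s e) (L e) k : ℂ) • B k (fl (K.1.cs F e)) (x e), fun e => ?_, ?_⟩
    · obtain ⟨u, hu⟩ := U_lin (Q := Q) (K.1.sp e) (K.1.lor e) (a e)
      rw [← h3 e, cov _ _ _ _ _ (K.1.sp e) (K.1.lor e) hf, hu, map_sum]
      refine Finset.sum_congr rfl fun k _ => ?_
      rw [map_smul, hu, fl_sim (s e) (K.1.sp e) (K.1.lor e)]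
      rfl
    · refine dif_sum _ fun k => ?_
      have h5 := (h4.fld (hB k) (g := K.1.cs F) (g' := vfS (wX X) (rX X) (X 0) F)
        (by rw [K.1.cs_zero]; exact K.1.tend F)).mul (hC s L a X k K)
      simp only [K.1.cs_zero, x0, K.1.s0, K.1.L0, fl_vfS K.2] at h5
      exact h5

lemma der_of (h : ∀ v, Gd Q v) {s : ℝ → ℝ} {L : ℝ → Ix → V} {a : ℝ → V} {X : V → V}
    (K : Cv s L a X) {v y : D} {x : ℝ → D} (h3 : ∀ e, Q.U (s e) (L e) (a e) (x e) = v)
    (h4 : Dif x y) : HasDerivAt (fun e => Q.U (s e) (L e) (a e) v) (-y) 0 := by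
  have x0 : x 0 = v := by rw [← h3 0, U_at0 K.1]
  have t1 : Tendsto (fun e => Q.U (s e) (L e) (a e) y - y) (𝓝[≠] 0) (𝓝 0) := by
    obtain ⟨Y, -, h2⟩ := h y
    obtain ⟨x', h3', h4'⟩ := h2 s L a X K
    have x0' : x' 0 = y := by rw [← h3' 0, U_at0 K.1]
    have h5 := ((h4' _ aj_id).continuousAt.tendsto.mono_left
      (nhdsWithin_le_nhds (s := {0}ᶜ))).const_sub y
    simp only [x0', sub_self] at h5
    rw [tendsto_zero_iff_norm_tendsto_zero] at h5 ⊢
    refine h5.congr fun e => ?_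
    rw [← U_nrm0 (Q := Q) (K.1.sp e) (K.1.lor e) (a e), H746.U_sub' (K.1.sp e) (K.1.lor e), h3']
  have t2 : Tendsto (fun e => Q.U (s e) (L e) (a e) (slope x 0 e - y)) (𝓝[≠] 0) (𝓝 0) := by
    have h1 := (hasDerivAt_iff_tendsto_slope.1 (h4 _ aj_id)).sub_const y
    rw [sub_self] at h1
    rw [tendsto_zero_iff_norm_tendsto_zero] at h1 ⊢
    refine h1.congr fun e => ?_
    rw [U_nrm0 (K.1.sp e) (K.1.lor e)]
  have t3 := ((t1.add t2).add_const y).neg
  rw [add_zero, zero_add] at t3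
  rw [hasDerivAt_iff_tendsto_slope]
  refine t3.congr fun e => ?_
  have e2 : ∀ u : ℝ → D, slope u 0 e = ((e : ℂ))⁻¹ • (u e - u 0) := by
    intro u
    rw [slope_def_module, sub_zero, ← ofReal_inv]
    rfl
  rw [e2, e2, H746.U_sub' (K.1.sp e) (K.1.lor e), U_smul (K.1.sp e) (K.1.lor e),
    H746.U_sub' (K.1.sp e) (K.1.lor e), h3, x0, U_at0 K.1]
  simp only [smul_sub]
  abel

theorem rep_of (Q : Theory D)
    (mul : ∀ s L a s' L' a' v, 0 < s → 0 < s' → IsLor L → IsLor L' →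
      Q.U s L a (Q.U s' L' a' v) = Q.U (s * s') (fun m => sim 1 L 0 (L' m)) (sim s L a a') v)
    (h : ∀ v, Gd Q v) : ∃ A, Rep Q A := by
  choose Y h1 h2 using id h
  refine ⟨fun X v => I • Y v X, mul, fun r r' t X X' v hX hX' => ?_,
    fun s L a X v s0 L0 a0 hp hX => ?_⟩
  · rw [h1 v r r' t X X' hX hX', smul_add, smul_comm I]
  · have K := cur s0 L0 a0 hp hX
    obtain ⟨x, h3, h4⟩ := h2 v s L a X K
    rw [smul_smul, I_mul_I, neg_one_smul]
    exact der_of h K h3 h4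

/-- **The representation of the similitudes is differentiable on the domain generated by a scalar
field and a tensor field.** -/
theorem rep (Q : Theory D)
    (mul : ∀ s L a s' L' a' v, 0 < s → 0 < s' → IsLor L → IsLor L' →
      Q.U s L a (Q.U s' L' a' v) = Q.U (s * s') (fun m => sim 1 L 0 (L' m)) (sim s L a a') v)
    (gen : ∀ S : Submodule ℂ D, Q.vac ∈ S →
      (∀ A f v, Q.fld A → GF.IsTest f → v ∈ S → A f v ∈ S) → ∀ v, v ∈ S)
    {φ : Fld D} {T : Ix → Ix → Fld D} {d : ℝ}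
    (hf : ∀ B, Q.fld B → B = φ ∨ ∃ m n, B = T m n) (hφ : Q.IsScalar φ d)
    (hb : ∀ m n, Q.fld (T m n))
    (hT : ∀ m n s L a f v, 0 < s → IsLor L → GF.IsTest f → T m n f (Q.U s L a v) =
      ∑ k, ∑ l, (L k m * L l n : ℂ) • Q.U s L a (T k l (fun x => f (sim s L a x)) v)) :
    ∃ A, Rep Q A := by
  refine rep_of Q mul ?_
  let S : Submodule ℂ D :=
    { carrier := {v | Gd Q v}
      add_mem' := fun hv hw => Gd.add hv hw
      zero_mem' := gd_inv fun s L a hs hL => by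
        obtain ⟨u, hu⟩ := U_lin (Q := Q) hs hL a
        rw [hu, map_zero]
      smul_mem' := fun c _ hv => Gd.smul hv c }
  refine gen S (gd_inv Q.U_vac) fun B f v hB hf' hv => ?_
  rcases hf B hB with rfl | ⟨m, n, rfl⟩
  · refine Gd.fld (ι := Unit) (B := fun _ => B) (fun _ => hB) (fun s _ _ => s ^ (4 - d))
      (fun X _ => rX X * (4 - d)) (fun s L a X _ K => ?_) (fun X X' t _ => ?_)
      (fun s L a f v hs hL hf => ?_) hf' hv
    · have h1 := K.1.ds.rpow_const (p := 4 - d) (Or.inl (K.1.sp 0).ne')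
      rw [K.1.s0, Real.one_rpow, mul_one] at h1
      exact h1
    · rw [rX_add]
      ring
    · rw [hφ.2.2 s L a f v hs hL hf]
      simp
  · refine Gd.fld (ι := Ix × Ix) (B := fun k => T k.1 k.2) (fun k => hb k.1 k.2)
      (fun _ L k => L k.1 m * L k.2 n)
      (fun X k => wX X k.1 m * GF.one k.2 n + GF.one k.1 m * wX X k.2 n) (fun s L a X k K => ?_)
      (fun X X' t _ => ?_) (fun s L a f v hs hL hf => ?_) hf' hv
    · have h2 := (K.1.dL k.1 m).fun_mul (K.1.dL k.2 n)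
      rw [K.1.L0] at h2
      exact h2
    · rw [wX_add, wX_add]
      ring
    · rw [hT m n s L a f v hs hL hf, Fintype.sum_prod_type]
      refine Finset.sum_congr rfl fun k _ => Finset.sum_congr rfl fun l _ => ?_
      push_cast
      rfl

/-- infinitesimal covariance of a scalar field -/
theorem A_sc {A : (V → V) → D → D} (h : Rep Q A) {φ : Fld D} {d : ℝ} (hφ : Q.IsScalar φ d)
    {r : ℝ} {X : V → V} (hX : IsSim r X) {f : Fn} (hf : GF.IsTest f) (v : D) :
    A X (φ f v) = φ f (A X v) + I • ((((4 - d) * r : ℝ) : ℂ) • φ f v + φ (vf X f) v) := by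
  obtain ⟨c, w, hw, hX⟩ := hX
  obtain ⟨s, L, a, K⟩ := exists_crv hw r c
  obtain ⟨F, rfl⟩ := exists_fl hf
  have hB := Q.bose_fld _ hφ.1
  have h1 := comm_gen h K hX (ι := Unit) (B := fun _ => φ) (fun _ => hB) hB
    (C := fun e _ => s e ^ (4 - d)) (C' := fun _ => (4 - d) * r) (fun _ => by
      have h1 := K.ds.rpow_const (p := 4 - d) (Or.inl (K.sp 0).ne')
      rw [K.s0, Real.one_rpow, mul_one, mul_comm] at h1
      exact h1) F v (fun e => by
      rw [hφ.2.2 _ _ _ _ v (K.sp e) (K.lor e) hf, fl_sim (s e) (K.sp e) (K.lor e)]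
      simp only [Finset.univ_unique, Finset.sum_singleton]
      rfl)
  rw [← fl_vfS hX]
  simp only [Finset.univ_unique, Finset.sum_singleton, K.s0, Real.one_rpow, ofReal_one,
    one_smul] at h1
  rw [(aj_fld hB hf).smul] at h1
  have h2 := congrArg (fun u => (-I) • u) h1
  simp only [smul_add, smul_smul] at h2
  have e2 : -I * I = 1 := by rw [neg_mul, I_mul_I, neg_neg]
  simp only [e2, one_smul] at h2
  rw [h2]
  simp only [smul_add, smul_smul, neg_mul, neg_smul, add_assoc]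
  abel

lemma aj_A {A : (V → V) → D → D} (h : Rep Q A) {r : ℝ} {X : V → V} (hX : IsSim r X) :
    Aj (A X) := ⟨A X, fun z v => (A_symm h hX z v).symm⟩

end Vale.Agent.P352W.Rp

end
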