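import Vale.Agent.P352.H746.Flow3

/-!
# Curves of similitudes are determined by their velocity fields
-/

set_option linter.all false

noncomputable section

open Filter Topology

namespace Vale.Agent.P352W.Rp

open Vale.Agent.P352 Vale.Agent.P352.GF Vale.Agent.P352.H746

/-- the rate of expansion of an affine vector field -/
def rX (X : V → V) : ℝ := X (bas o 1) o - X 0 o

/-- the Lorentz part of an affine vector field -/
def wX (X : V → V) : Ix → V := fun m n => X (bas m 1) n - X 0 n - rX X * GF.one m n

lemma rX_add (X X' : V → V) (t : ℝ) : rX (fun z => X z + t • X' z) = rX X + t * rX X' := by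
  simp only [rX, Pi.add_apply, Pi.smul_apply, smul_eq_mul]
  ring

lemma wX_add (X X' : V → V) (t : ℝ) (m n : Ix) :
    wX (fun z => X z + t • X' z) m n = wX X m n + t * wX X' m n := by
  simp only [wX, rX_add, Pi.add_apply, Pi.smul_apply, smul_eq_mul]
  ring

/-- a curve of similitudes with velocity field `X` -/
def Cv (s : ℝ → ℝ) (L : ℝ → Ix → V) (a : ℝ → V) (X : V → V) : Prop :=
  Crv s L a (wX X) (rX X) (X 0) ∧ ∀ z n, X z n = X 0 n + rX X * z n + ∑ m, z m * wX X m n

theorem cur {s : ℝ → ℝ} {L : ℝ → Ix → V} {a : ℝ → V} {X : V → V} (s0 : s 0 = 1)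
    (L0 : L 0 = GF.one) (a0 : a 0 = 0) (hp : ∀ e, 0 < s e ∧ IsLor (L e))
    (hX : ∀ n x, HasDerivAt (fun e => sim (s e) (L e) (a e) x n) (X x n) 0) : Cv s L a X := by
  have e0 : ∀ e n, sim (s e) (L e) (a e) 0 n = a e n := by
    intro e n
    simp [sim]
  have e1 : ∀ e m n, sim (s e) (L e) (a e) (bas m 1) n = a e n + s e * L e m n := by
    intro e m n
    unfold sim
    rw [Finset.sum_eq_single m]
    · simp [bas]
    · intro k _ hk
      simp [bas, hk]
    · simp
  have ha : ∀ n, HasDerivAt (fun e => a e n) (X 0 n) 0 := by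
    intro n
    have := hX n 0
    simp only [e0] at this
    exact this
  have hM : ∀ m n, HasDerivAt (fun e => s e * L e m n) (X (bas m 1) n - X 0 n) 0 := by
    intro m n
    have h1 := (hX n (bas m 1)).sub (ha n)
    have h2 : (fun e => sim (s e) (L e) (a e) (bas m 1) n) - (fun e => a e n) =
        fun e => s e * L e m n := by
      funext e
      simp only [Pi.sub_apply, e1]
      ring
    rw [h2] at h1
    exact h1
  have hq : HasDerivAt (fun e => ∑ k, eta k * (s e * L e o k) * (s e * L e o k))
      (2 * rX X) 0 := by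
    have h1 := HasDerivAt.fun_sum (u := Finset.univ) fun k _ =>
      ((hM o k).const_mul (eta k)).fun_mul (hM o k)
    refine h1.congr_deriv ?_
    rw [s0, L0, Finset.sum_eq_single o]
    · simp [GF.one, bas, eta, rX]
      ring
    · intro k _ hk
      simp [GF.one, bas, hk]
    · simp
  have hq' : (fun e => ∑ k, eta k * (s e * L e o k) * (s e * L e o k)) = fun e => s e ^ 2 := by
    funext e
    have h1 := (hp e).2.1 o o
    simp only [GF.mdot, bas, if_true] at h1
    have h2 : ∑ k, eta k * (s e * L e o k) * (s e * L e o k) =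
        s e ^ 2 * ∑ k, eta k * L e o k * L e o k := by
      rw [Finset.mul_sum]
      exact Finset.sum_congr rfl fun k _ => by ring
    rw [h2, h1]
    simp [eta]
  rw [hq'] at hq
  have hs : HasDerivAt s (rX X) 0 := by
    have h1 := hq.sqrt (by rw [s0]; norm_num)
    have h2 : (fun e => Real.sqrt (s e ^ 2)) = s := by
      funext e
      exact Real.sqrt_sq (hp e).1.le
    rw [h2, s0] at h1
    refine h1.congr_deriv ?_
    simp
  have hL : ∀ m n, HasDerivAt (fun e => L e m n) (wX X m n) 0 := by
    intro m n
    have h1 := (hM m n).fun_div hs (hp 0).1.ne'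
    have h2 : (fun e => s e * L e m n / s e) = fun e => L e m n := by
      funext e
      have := (hp e).1.ne'
      field_simp
    rw [h2, s0, L0] at h1
    refine h1.congr_deriv ?_
    simp only [wX]
    ring
  have K : Crv s L a (wX X) (rX X) (X 0) :=
    ⟨s0, L0, a0, fun e => (hp e).1, fun e => (hp e).2, hs, hL, ha⟩
  refine ⟨K, fun z n => ?_⟩
  exact (hX n z).unique (K.dX (X := fun z n => X 0 n + rX X * z n + ∑ m, z m * wX X m n)
    (fun _ _ => rfl) n z)

end Vale.Agent.P352W.Rp

end
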